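import Vale.Agent.P144D.I.T.Defs

/-!
Weaker versions of two statements on marked points; they suffice for the lower bound.
-/

namespace Vale.Agent.P144Z

open Finset Matrix

/-- Near the source the superharmonic function is bounded below on a deep square, given the gap. -/
def NearA2 : Prop :=
  ∀ c : ℝ, 1 ≤ c → ∃ C₀ L₀ : ℕ, ∀ L ≥ L₀, ∃ κ > 0, ∀ (N : ℕ) (Γ : ℝ), ∃ c₀ > 0, ∃ J₀ : ℕ,
    ∀ J ≥ J₀, ∀ (M : ℕ) [NeZero M] (I : Finset (Tor M)) (T q : ℕ) (x₀ : ℤ × ℤ) (e : Fin 4)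
    (ua : ℕ → Tor M × Fin 4 → ℝ) (νa : ℕ → ℝ) (η : ℝ) (φ : Tor M × Fin 4 → ℝ)
    (u w : ℤ × ℤ → ℝ), (∀ f ∈ I, tdist f 0 ≤ T) → zd x₀ 0 ≤ T + 1 →
    MkT I κ (16 * q) (prj M x₀) e → C₀ * sc L J ≤ q → q ≤ T →
    T ≤ N * sc L J → 64 * T ≤ M → MkCh (pwI I) L J (prj M x₀, e + 2) ua νa c η →
    (∀ ψ, ψ ⬝ᵥ ψ ≤ (Γ * sc L J) ^ 2 * ((Dm (pwI I) *ᵥ ψ) ⬝ᵥ (Dm (pwI I) *ᵥ ψ))) →
    Dm (pwI I) *ᵥ φ = Pi.single (prj M x₀, e + 2) 1 →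
    (∀ v k, zd v 0 ≤ 20 * T → u v - w (v - cn k) = chi φ (prj M v) k ^ 2) →
    (∀ v, zd v 0 ≤ 20 * T + 1 → 0 ≤ w v ∧ (prj M v ∉ I → w v = 0) ∧ (prj M v ∈ I → SupH w v)) →
    (∀ v, zd v 0 + 1 ≤ 20 * T → v ≠ x₀ → 0 ≤ ∑ a, GG u ((⟨I, false⟩ : Reg M).pr 0) v a ∧
      ∑ k, chi φ (prj M v) k ^ 2 ≤ 7 * ∑ a, |GG u ((⟨I, false⟩ : Reg M).pr 0) v a|) →
      ∀ v, zd v (x₀ + (8 * q : ℕ) • st4 e) ≤ q → c₀ * νa J ^ 2 ≤ w v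

/-- The Green function between two far marked half-edges of a corridor is bounded below. -/
def TwoPt2 : Prop :=
  ∀ c : ℝ, 1 ≤ c → ∃ η > 0, ∃ C₀ L₀ : ℕ, ∀ L ≥ L₀, ∃ κ > 0, ∀ N : ℕ, ∃ c₀ > 0, ∃ J₀ : ℕ,
    ∀ J ≥ J₀, ∀ (M : ℕ) [NeZero M] (I Ia : Finset (Tor M)) (T q : ℕ) (a b : Tor M)
    (ea eb : Fin 4) (ua ub : ℕ → Tor M × Fin 4 → ℝ) (νa νb : ℕ → ℝ),
    Corr I T q N (a + prj M ((8 * q : ℕ) • st4 ea)) (b + prj M ((8 * q : ℕ) • st4 eb)) → I ⊆ Ia →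
    Side I Ia a (16 * q) → Side I Ia b (16 * q) → MkT Ia κ (16 * q) a ea →
    MkT Ia κ (16 * q) b eb → 16 * q < tdist a b → C₀ * sc L J ≤ q → q ≤ T → T ≤ N * sc L J →
    64 * T ≤ M → MkCh (pwI Ia) L J (a, ea + 2) ua νa c η → MkCh (pwI Ia) L J (b, eb + 2) ub νb c η →
    ∀ φ, Dm (pwI I) *ᵥ φ = Pi.single (a, ea + 2) 1 → c₀ * νa J * νb J ≤ |φ (b, eb + 2)|

theorem TwoPt.two (h : TwoPt) : TwoPt2 := fun c hc => by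
  obtain ⟨η, hη, C₀, L₀, h⟩ := h c hc
  refine ⟨η, hη, C₀, L₀, fun L hL => ?_⟩
  obtain ⟨κ, hκ, h⟩ := h L hL
  refine ⟨κ, hκ, fun N => ?_⟩
  obtain ⟨c₀, hc₀, J₀, h⟩ := h N
  refine ⟨c₀, hc₀, J₀, fun J hJ M _ I Ia T q a b ea eb ua ub νa νb h1 _ h2 h3 h4 h5 h6 => ?_⟩
  exact h J hJ M I Ia Ia T q a b ea eb ua ub νa νb h1 h2 h3 h4 h5
    (fun k => by have := k.1; rw [tdist_comm] at this; omega) fun k => by have := k.1; omega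

end Vale.Agent.P144Z
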