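import Vale.Agent.P144D.I.DefsN
import Vale.Agent.P144D.Geo.B

/-!
Conversions between the plane lattice and the torus for the marked points.
-/

namespace Vale.Agent.P144Z

open Finset Matrix GeoA

namespace IConv

theorem add_two_sub_one (e : Fin 4) : e + 2 - 1 = e + 1 := by fin_cases e <;> rfl

theorem zd_cn (k : Fin 4) : zd (cn k) 0 ≤ 1 := by fin_cases k <;> simp [cn, zd]

theorem zd_neg_cn (k : Fin 4) : zd (-cn k) 0 ≤ 1 := by fin_cases k <;> simp [cn, zd]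

theorem zd_sub_cn (v : ℤ × ℤ) (k : Fin 4) : zd (v - cn k) v ≤ 1 := by
  fin_cases k <;> simp [cn, zd]

theorem zd_add_left (x v : ℤ × ℤ) : zd (x + v) x = zd v 0 := by simp [zd]

theorem zd_sub_zero (x v : ℤ × ℤ) : zd (v - x) 0 = zd v x := by simp [zd]

theorem zd_self (x : ℤ × ℤ) : zd x x = 0 := by simp [zd]

theorem st4_cases (e : Fin 4) :
    st4 e = (1, 0) ∨ st4 e = (0, 1) ∨ st4 e = (-1, 0) ∨ st4 e = (0, -1) := by
  fin_cases e <;> simp [st4]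

/-- The best direction among the four steps. -/
theorem exists_best_st4 {ν : ℂ} (h : ‖ν‖ = 1) : ∃ e : Fin 4, 1 / 2 ≤ ht ν (st4 e) := by
  obtain ⟨e, he, he'⟩ := exists_best h
  rcases he with rfl | rfl | rfl | rfl
  exacts [⟨0, he'⟩, ⟨1, he'⟩, ⟨2, he'⟩, ⟨3, he'⟩]

theorem abs_cast_le {x : ℤ} {n : ℕ} (hx : x.natAbs ≤ n) : |(x : ℝ)| ≤ n := by
  have : |x| ≤ n := abs_le.2 (by omega)
  exact_mod_cast this

theorem len_le_zd {v : ℤ × ℤ} {n : ℕ} (h : zd v 0 ≤ n) : len v ≤ 2 * n := by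
  simp only [zd, Prod.fst_zero, Prod.snd_zero, sub_zero, max_le_iff] at h
  linarith [len_le v, abs_cast_le h.1, abs_cast_le h.2]

theorem abs_ht_le {ν : ℂ} (hν : ‖ν‖ = 1) {v : ℤ × ℤ} {n : ℕ} (h : zd v 0 ≤ n) :
    |ht ν v| ≤ 2 * n := by
  simp only [zd, Prod.fst_zero, Prod.snd_zero, sub_zero, max_le_iff] at h
  have a1 := abs_mul_le (abs_cast_le h.1) (abs_re hν)
  have a2 := abs_mul_le (abs_cast_le h.2) (abs_im hν)
  unfold ht
  linarith [abs_add_le ((v.1 : ℝ) * ν.re) (v.2 * ν.im)]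

theorem ht_add (ν : ℂ) (u v : ℤ × ℤ) : ht ν (u + v) = ht ν u + ht ν v := by
  simp only [ht, Prod.fst_add, Prod.snd_add]
  push_cast
  ring

theorem ht_sub (ν : ℂ) (u v : ℤ × ℤ) : ht ν (u - v) = ht ν u - ht ν v := by
  simp only [ht, Prod.fst_sub, Prod.snd_sub]
  push_cast
  ring

/-- Below an outer point near the origin everything is outside. -/
theorem not_mem_of_ht {S : Set (ℤ × ℤ)} {ν : ℂ} {κ : ℝ} (h : Epi S ν κ) (hν : ‖ν‖ = 1)
    (hκ : 0 ≤ κ) {u v : ℤ × ℤ} (hu : u ∉ S) (hu1 : zd u 0 ≤ 1) {ρ : ℕ} (hv : zd v 0 ≤ ρ)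
    (hw : ht ν v ≤ -(2 * κ * (ρ + 1) + 2)) : v ∉ S := by
  refine epi_out h hu ?_
  have a1 : zd (u - v) 0 ≤ ρ + 1 := by
    simp only [zd, Prod.fst_sub, Prod.snd_sub, Prod.fst_zero, Prod.snd_zero] at hu1 hv ⊢
    omega
  have a2 := mul_le_mul_of_nonneg_left (len_le_zd a1) hκ
  have a3 := (abs_le.1 (abs_ht_le hν hu1)).1
  rw [ht_sub]
  push_cast at a2 a3
  linarith

/-- Above an inner point near the origin everything is inside. -/
theorem mem_of_ht {S : Set (ℤ × ℤ)} {ν : ℂ} {κ : ℝ} (h : Epi S ν κ) (hν : ‖ν‖ = 1)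
    (hκ : 0 ≤ κ) {u v : ℤ × ℤ} (hu : u ∈ S) (hu1 : zd u 0 ≤ 1) {ρ : ℕ} (hv : zd v 0 ≤ ρ)
    (hw : 2 * κ * (ρ + 1) + 2 ≤ ht ν v) : v ∈ S := by
  have a1 : zd (v - u) 0 ≤ ρ + 1 := by
    simp only [zd, Prod.fst_sub, Prod.snd_sub, Prod.fst_zero, Prod.snd_zero] at hu1 hv ⊢
    omega
  have a2 := mul_le_mul_of_nonneg_left (len_le_zd a1) hκ
  have a3 := (abs_le.1 (abs_ht_le hν hu1)).2
  have := h u hu (v - u) (by rw [ht_sub]; push_cast at a2 a3; linarith)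
  simpa using this

theorem rtg_mono {β : Type} {p q : β → β → Prop} {a b : β} (h : Relation.ReflTransGen p a b)
    (hpq : ∀ x y, p x y → q x y) : Relation.ReflTransGen q a b := by
  induction h with
  | refl => exact Relation.ReflTransGen.refl
  | tail _ h2 ih => exact ih.tail (hpq _ _ h2)

theorem rch_iff_pc {P : ℤ × ℤ → Prop} {u w : ℤ × ℤ} : Rch P u w ↔ B5a2.PC P u w := by
  constructor <;> refine fun h => rtg_mono h ?_ <;> rintro a b ⟨h1, h2, h3⟩ <;>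
    refine ⟨h1, h2, ?_⟩ <;> simp only [Prod.ext_iff, Prod.fst_add, Prod.snd_add] at h3 ⊢ <;> omega

theorem rch_mono {P Q : ℤ × ℤ → Prop} (hPQ : ∀ v, P v → Q v) {u w : ℤ × ℤ} (h : Rch P u w) :
    Rch Q u w :=
  rtg_mono h fun _ _ h => ⟨hPQ _ h.1, hPQ _ h.2.1, h.2.2⟩

/-- Translation of a path. -/
theorem rch_shift {P Q : ℤ × ℤ → Prop} (z : ℤ × ℤ) (hPQ : ∀ v, P v → Q (z + v)) {u w : ℤ × ℤ}
    (h : Rch P u w) : Rch Q (z + u) (z + w) := by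
  refine Relation.ReflTransGen.lift (fun x => z + x) ?_ _ _ h
  rintro a b ⟨h1, h2, h3⟩
  refine ⟨hPQ _ h1, hPQ _ h2, ?_⟩
  simp only [Prod.ext_iff, Prod.fst_add, Prod.snd_add] at h3 ⊢
  omega

variable {M : ℕ}

theorem prj_neg (v : ℤ × ℤ) : prj M (-v) = -prj M v := by simp [prj]

theorem prj_inj {u v : ℤ × ℤ} (h : zd u v < M) (e : prj M u = prj M v) : u = v := by
  have one : ∀ a b : ℤ, (a : ZMod M) = b → (a - b).natAbs < M → a = b := by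
    intro a b e hab
    have := Int.eq_zero_of_dvd_of_natAbs_lt_natAbs
      ((ZMod.intCast_eq_intCast_iff_dvd_sub b a M).1 e.symm) (by simpa using hab)
    omega
  unfold zd at h
  exact Prod.ext (one _ _ (congrArg Prod.fst e) (by omega)) (one _ _ (congrArg Prod.snd e) (by omega))

/-- Membership in the image on the torus. -/
theorem mem_image_prj {Λ : Finset (ℤ × ℤ)} {T R : ℕ} (hΛ : ∀ v ∈ Λ, zd v 0 ≤ T) (hM : T + R < M)
    {x : ℤ × ℤ} (hx : zd x 0 ≤ R) : prj M x ∈ Λ.image (prj M) ↔ x ∈ Λ := by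
  refine ⟨fun h => ?_, mem_image_of_mem _⟩
  obtain ⟨v, hv, e⟩ := mem_image.1 h
  have h1 := hΛ v hv
  have h2 := zd_tri v 0 x
  rw [zd_comm 0] at h2
  exact prj_inj (M := M) (by omega) e ▸ hv

/-- The two faces of the edge of a half-edge. -/
theorem faces_hedge (z : Tor M) (a : Fin 4) (P : Tor M → Prop) :
    (P (hedge (z, a)).1 ∨ P (oth (hedge (z, a)))) ↔
      (P (z - prj M (cn (a - 1))) ∨ P (z - prj M (cn a))) := by
  have e0 : prj M (0, 0) = 0 := by simp [prj]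
  have e1 : z - uv M 0 - uv M 1 = z - prj M (1, 1) := by simp [prj, uv, sub_sub]
  have e2 : z - uv M 1 - uv M 0 = z - prj M (1, 1) := by simp [prj, uv, sub_sub]
  fin_cases a
  · change (P z ∨ P (z - uv M 1)) ↔ (P (z - prj M (0, 1)) ∨ P (z - prj M (0, 0)))
    rw [e0, sub_zero, G.uv_one, or_comm]
  · change (P z ∨ P (z - uv M 0)) ↔ (P (z - prj M (0, 0)) ∨ P (z - prj M (1, 0)))
    rw [e0, sub_zero, G.uv_zero]
  · change (P (z - uv M 0) ∨ P (z - uv M 0 - uv M 1)) ↔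
      (P (z - prj M (1, 0)) ∨ P (z - prj M (1, 1)))
    rw [e1, G.uv_zero]
  · change (P (z - uv M 1) ∨ P (z - uv M 1 - uv M 0)) ↔
      (P (z - prj M (1, 1)) ∨ P (z - prj M (0, 1)))
    rw [e2, G.uv_one, or_comm]

theorem pwI_eq (I : Finset (Tor M)) (e : Tor M × Fin 2) :
    pwI I e = if e.1 ∈ I ∨ oth e ∈ I then 1 else 0 := by
  simp [Reg.pw]

theorem pwI_val (I : Finset (Tor M)) (e : Tor M × Fin 2) : pwI I e = 0 ∨ pwI I e = 1 := by
  rw [pwI_eq]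
  split_ifs <;> simp

theorem pwI_eq_one {I : Finset (Tor M)} {e : Tor M × Fin 2} :
    pwI I e = 1 ↔ e.1 ∈ I ∨ oth e ∈ I := by
  rw [pwI_eq]
  split_ifs with h <;> simp [h]

theorem pwI_eq_zero {I : Finset (Tor M)} {e : Tor M × Fin 2} :
    pwI I e = 0 ↔ e.1 ∉ I ∧ oth e ∉ I := by
  rw [pwI_eq, ← not_or]
  split_ifs with h <;> simp only [h] <;> simp

theorem pwI_hedge_one {I : Finset (Tor M)} {z : Tor M} {a : Fin 4} :
    pwI I (hedge (z, a)) = 1 ↔ z - prj M (cn (a - 1)) ∈ I ∨ z - prj M (cn a) ∈ I := by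
  rw [pwI_eq_one]
  exact faces_hedge z a (· ∈ I)

theorem pwI_hedge_zero {I : Finset (Tor M)} {z : Tor M} {a : Fin 4} :
    pwI I (hedge (z, a)) = 0 ↔ z - prj M (cn (a - 1)) ∉ I ∧ z - prj M (cn a) ∉ I := by
  rw [pwI_eq_zero, ← not_or, ← not_or]
  exact not_congr (faces_hedge z a (· ∈ I))

variable [NeZero M]

theorem vma_natAbs {a : ℤ} (h : 2 * a.natAbs ≤ M) : (a : ZMod M).valMinAbs.natAbs = a.natAbs := by
  have hM : (0 : ℤ) < M := by exact_mod_cast Nat.pos_of_ne_zero (NeZero.ne M)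
  have key : ∀ b : ℤ, 0 ≤ b → 2 * b ≤ M → (b : ZMod M).valMinAbs = b := by
    intro b h0 h1
    rw [ZMod.valMinAbs_spec]
    refine ⟨rfl, ?_, ?_⟩ <;> omega
  rcases le_total 0 a with h0 | h0
  · rw [key a h0 (by omega)]
  · have e : (a : ZMod M) = -((-a : ℤ) : ZMod M) := by simp
    rw [e, ZMod.natAbs_valMinAbs_neg, key (-a) (by omega) (by omega), Int.natAbs_neg]

/-- Small distances are the same on the torus. -/
theorem tdist_prj {u v : ℤ × ℤ} (h : 2 * zd u v ≤ M) : tdist (prj M u) (prj M v) = zd u v := by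
  rw [G.tdist_def, ← G.prj_sub]
  unfold zd at h ⊢
  simp only [lft, prj, Prod.fst_sub, Prod.snd_sub]
  rw [vma_natAbs (by omega), vma_natAbs (by omega)]

theorem tdist_prj_zero {v : ℤ × ℤ} (h : 2 * zd v 0 ≤ M) : tdist (prj M v) 0 = zd v 0 := by
  rw [← tdist_prj h, G.prj_zero]

theorem tdist_prj_le_zd (u v : ℤ × ℤ) : tdist (prj M u) (prj M v) ≤ zd u v := tdist_prj_le u v

omit [NeZero M] in
theorem zd_lft_zero (f : Tor M) : zd (lft f) 0 = tdist f 0 := by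
  simpa using zd_lft f 0

theorem box_image {Λ : Finset (ℤ × ℤ)} {T : ℕ} (hΛ : ∀ v ∈ Λ, zd v 0 ≤ T) :
    ∀ f ∈ Λ.image (prj M), tdist f 0 ≤ T := by
  intro f hf
  obtain ⟨v, hv, rfl⟩ := mem_image.1 hf
  have := tdist_prj_le_zd (M := M) v 0
  rw [G.prj_zero] at this
  exact this.trans (hΛ v hv)

theorem hsq_nonneg (A : Gauge M) (ρ : ℕ) (B : Finset (Tor M)) (g : Tor M × Fin 4 → ℝ) :
    0 ≤ hsq A ρ B g :=
  sum_nonneg fun _ _ => mul_nonneg (by positivity)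
    (sum_nonneg fun _ _ => sum_nonneg fun _ _ => sq_nonneg _)

omit [NeZero M] in
/-- A path of the plane gives a path of the torus. -/
theorem lift_rch {P : ℤ × ℤ → Prop} {Q : Tor M → Prop} (z : Tor M)
    (hPQ : ∀ v, P v → Q (z + prj M v)) {u w : ℤ × ℤ} (h : Rch P u w) :
    Relation.ReflTransGen (fun a b => Q a ∧ Q b ∧ ∃ i, b = a + uv M i ∨ a = b + uv M i)
      (z + prj M u) (z + prj M w) := by
  refine Relation.ReflTransGen.lift (fun x => z + prj M x) ?_ _ _ h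
  rintro a b ⟨q1, q2, q3⟩
  refine ⟨hPQ _ q1, hPQ _ q2, ?_⟩
  beta_reduce
  rcases q3 with rfl | rfl | rfl | rfl
  · exact ⟨0, Or.inl (by rw [G.prj_add, G.uv_zero, add_assoc])⟩
  · exact ⟨1, Or.inl (by rw [G.prj_add, G.uv_one, add_assoc])⟩
  · exact ⟨0, Or.inr (by simp [uv, prj, add_assoc])⟩
  · exact ⟨1, Or.inr (by simp [uv, prj, add_assoc])⟩

/-- A far point is joined to the square of radius `T + 1` through far points. -/
theorem rch_in (T : ℕ) (v : ℤ × ℤ) (hv : T < zd v 0) : ∃ w, zd w 0 = T + 1 ∧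
    Rch (fun x => T < zd x 0 ∧ zd x 0 ≤ zd v 0) v w := by
  obtain ⟨n, hn⟩ : ∃ n, v.1.natAbs + v.2.natAbs ≤ n := ⟨_, le_rfl⟩
  induction n generalizing v with
  | zero =>
    simp only [zd, Prod.fst_zero, Prod.snd_zero, sub_zero] at hv
    omega
  | succ n ih =>
    by_cases h : zd v 0 = T + 1
    · exact ⟨v, h, Relation.ReflTransGen.refl⟩
    have step : ∀ e : ℤ × ℤ, (e = (1, 0) ∨ e = (0, 1) ∨ e = (-1, 0) ∨ e = (0, -1)) →
        T < zd (v + e) 0 → zd (v + e) 0 ≤ zd v 0 → (v + e).1.natAbs + (v + e).2.natAbs ≤ n →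
        ∃ w, zd w 0 = T + 1 ∧ Rch (fun x => T < zd x 0 ∧ zd x 0 ≤ zd v 0) v w := by
      intro e he h1 h2 h3
      obtain ⟨w, w1, w2⟩ := ih (v + e) h1 h3
      refine ⟨w, w1, Relation.ReflTransGen.head ⟨⟨hv, le_rfl⟩, ⟨h1, h2⟩, ?_⟩
        (rch_mono (fun x hx => ⟨hx.1, hx.2.trans h2⟩) w2)⟩
      rcases he with rfl | rfl | rfl | rfl <;> simp
    simp only [zd, Prod.fst_zero, Prod.snd_zero, sub_zero] at hv h
    rcases lt_trichotomy v.1 0 with h1 | h1 | h1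
    · refine step (1, 0) (by simp) ?_ ?_ ?_ <;>
        simp only [zd, Prod.fst_add, Prod.snd_add, Prod.fst_zero, Prod.snd_zero] <;> omega
    · rcases le_total v.2 0 with h2 | h2
      · refine step (0, 1) (by simp) ?_ ?_ ?_ <;>
          simp only [zd, Prod.fst_add, Prod.snd_add, Prod.fst_zero, Prod.snd_zero] <;> omega
      · refine step (0, -1) (by simp) ?_ ?_ ?_ <;>
          simp only [zd, Prod.fst_add, Prod.snd_add, Prod.fst_zero, Prod.snd_zero] <;> omega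
    · refine step (-1, 0) (by simp) ?_ ?_ ?_ <;>
        simp only [zd, Prod.fst_add, Prod.snd_add, Prod.fst_zero, Prod.snd_zero] <;> omega

end IConv

open IConv

/-! ### Marked points of the plane -/

section

variable {Λ : Finset (ℤ × ℤ)} {κ κ' : ℝ} {r r' T : ℕ} {x : ℤ × ℤ} {e : Fin 4}

theorem Touch.zd_le (h : Touch Λ x) (hΛ : ∀ v ∈ Λ, zd v 0 ≤ T) : zd x 0 ≤ T + 1 := by
  obtain ⟨k, hk⟩ := h
  have h1 := hΛ _ hk
  have h2 := zd_sub_cn x k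
  have h3 := zd_tri x (x - cn k) 0
  rw [zd_comm x (x - cn k)] at h3
  omega

theorem MkZ.mono (h : MkZ Λ κ r x e) (hκ : κ ≤ κ') (hr : r' ≤ r) : MkZ Λ κ' r' x e := by
  obtain ⟨S, ν, h1, h2, h3, h4⟩ := h.cone
  exact ⟨⟨S, ν, h1, epi_mono h2 hκ, h3, fun v hv => h4 v (hv.trans hr)⟩, h.rem, h.touch⟩

theorem MkG.mono {k : ℕ} {x : Fin k → ℤ × ℤ} {e : Fin k → Fin 4} (h : MkG Λ κ r x e)
    (hκ : κ ≤ κ') (hr : r' ≤ r) : MkG Λ κ' r' x e :=
  ⟨fun i => (h.mk1 i).mono hκ hr, fun i i' n => hr.trans_lt (h.sep i i' n)⟩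

theorem MkG.injective {k : ℕ} {x : Fin k → ℤ × ℤ} {e : Fin k → Fin 4} (h : MkG Λ κ r x e) :
    Function.Injective x := fun i i' hx => by
  by_contra n
  have := h.sep i i' n
  rw [hx, IConv.zd_self] at this
  omega

variable {M : ℕ}

theorem touchT_iff (hΛ : ∀ v ∈ Λ, zd v 0 ≤ T) {R : ℕ} (hM : T + R + 1 < M) (hx : zd x 0 ≤ R) :
    TouchT (Λ.image (prj M)) (prj M x) ↔ Touch Λ x := by
  refine exists_congr fun k => ?_
  rw [← G.prj_sub]
  refine mem_image_prj hΛ (R := R + 1) hM ?_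
  have := zd_tri (x - cn k) x 0
  have := zd_sub_cn x k
  omega

theorem Touch.touchT (h : Touch Λ x) : TouchT (Λ.image (prj M)) (prj M x) := by
  obtain ⟨k, hk⟩ := h
  exact ⟨k, by rw [← G.prj_sub]; exact mem_image_of_mem _ hk⟩

theorem pwI_hedge_prj (hΛ : ∀ v ∈ Λ, zd v 0 ≤ T) {R : ℕ} (hM : T + R + 1 < M) (hx : zd x 0 ≤ R)
    (a : Fin 4) : pwI (Λ.image (prj M)) (hedge (prj M x, a)) = 0 ↔ RemE Λ x a := by
  have key : ∀ k, prj M x - prj M (cn k) ∈ Λ.image (prj M) ↔ x - cn k ∈ Λ := fun k => by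
    rw [← G.prj_sub]
    refine mem_image_prj hΛ (R := R + 1) hM ?_
    have := zd_tri (x - cn k) x 0
    have := zd_sub_cn x k
    omega
  rw [pwI_hedge_zero, key, key, RemE]

/-- From the plane to the torus. -/
theorem MkZ.mkT' (h : MkZ Λ κ r x e) (hΛ : ∀ v ∈ Λ, zd v 0 ≤ T) (hM : 2 * T + r + 3 ≤ M) :
    MkT (Λ.image (prj M)) κ r (prj M x) e := by
  have hx := h.touch.zd_le hΛ
  obtain ⟨S, ν, h1, h2, h3, h4⟩ := h.cone
  refine ⟨⟨S, ν, h1, h2, h3, fun v hv => Iff.trans ?_ (h4 v hv)⟩, ?_, h.touch.touchT⟩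
  · rw [← G.prj_add]
    refine mem_image_prj hΛ (R := T + 1 + r) (by omega) ?_
    have := zd_tri (x + v) x 0
    rw [zd_add_left] at this
    omega
  · have := (pwI_hedge_prj (M := M) hΛ (R := T + 1) (by omega) hx (e + 2)).2 h.rem
    rwa [pwI_hedge_zero, add_two_sub_one] at this

theorem MkZ.mkT (h : MkZ Λ κ r x e) (hΛ : ∀ v ∈ Λ, zd v 0 ≤ T) (hM : 4 * (T + r) ≤ M)
    (hr : 1 ≤ r) : MkT (Λ.image (prj M)) κ r (prj M x) e :=
  h.mkT' hΛ (by omega)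

end

/-! ### Marked points of the torus -/

section

variable {M : ℕ} {I : Finset (Tor M)} {κ κ' : ℝ} {r r' : ℕ} {z : Tor M} {e : Fin 4}

theorem MkT.mono (h : MkT I κ r z e) (hκ : κ ≤ κ') (hr : r' ≤ r) : MkT I κ' r' z e := by
  obtain ⟨S, ν, h1, h2, h3, h4⟩ := h.cone
  exact ⟨⟨S, ν, h1, epi_mono h2 hκ, h3, fun v hv => h4 v (hv.trans hr)⟩, h.rem, h.touch⟩

theorem MkT.shapeAt' (h : MkT I κ r z e) {α : ℝ} (hα : α ≤ 2) : ShapeAt I α κ r z := by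
  obtain ⟨S, ν, h1, h2, -, h4⟩ := h.cone
  refine ⟨S, S, ν, ν, h1, h1, ?_, h2, h2, fun v hv => by rw [and_self]; exact h4 v hv⟩
  rw [← two_mul, norm_mul, h1]
  simpa using hα

theorem MkT.shapeAt (h : MkT I κ r z e) : ShapeAt I 1 κ r z := h.shapeAt' one_le_two

theorem MkT.rem' (h : MkT I κ r z e) : pwI I (hedge (z, e + 2)) = 0 := by
  rw [pwI_hedge_zero, add_two_sub_one]
  exact h.rem

/-- One of the two faces along the inner direction is inside. -/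
theorem MkT.inner (h : MkT I κ r z e) : z - prj M (cn (e - 1)) ∈ I ∨ z - prj M (cn e) ∈ I := by
  obtain ⟨k, hk⟩ := h.touch
  obtain ⟨h1, h2⟩ := h.rem
  have : ∀ e k : Fin 4, k = e - 1 ∨ k = e ∨ k = e + 1 ∨ k = e + 2 := by decide
  rcases this e k with rfl | rfl | rfl | rfl
  exacts [Or.inl hk, Or.inr hk, absurd hk h1, absurd hk h2]

theorem MkT.pres' (h : MkT I κ r z e) : pwI I (hedge (z, e)) = 1 := pwI_hedge_one.2 h.inner

theorem MkT.pres (h : MkT I κ r z e) : ∃ a, pwI I (hedge (z, a)) = 1 := ⟨e, h.pres'⟩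

/-- The cone of a marked point with its outer and inner half-planes. -/
theorem MkT.halves (h : MkT I κ r z e) (hκ : 0 ≤ κ) (hr : 1 ≤ r) :
    ∃ (S : Set (ℤ × ℤ)) (ν : ℂ), ‖ν‖ = 1 ∧ Epi S ν κ ∧ 1 / 2 ≤ ht ν (st4 e) ∧
      (∀ v : ℤ × ℤ, zd v 0 ≤ r → (z + prj M v ∈ I ↔ v ∈ S)) ∧
      ∀ ρ ≤ r, OutH I z ν ρ (2 * κ * (ρ + 1) + 2) ∧ InH I z ν ρ (2 * κ * (ρ + 1) + 2) := by
  obtain ⟨S, ν, h1, h2, h3, h4⟩ := h.cone
  have key : ∀ k, z - prj M (cn k) ∈ I ↔ -cn k ∈ S := fun k => by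
    rw [← h4 _ ((zd_neg_cn k).trans hr), IConv.prj_neg, sub_eq_add_neg]
  obtain ⟨k, hk⟩ := h.touch
  refine ⟨S, ν, h1, h2, h3, h4, fun ρ hρ => ⟨fun v hv hw => ?_, fun v hv hw => ?_⟩⟩
  · rw [h4 v (hv.trans hρ)]
    exact not_mem_of_ht h2 h1 hκ (fun h' => h.rem.1 ((key _).2 h')) (zd_neg_cn _) hv hw
  · rw [h4 v (hv.trans hρ)]
    exact mem_of_ht h2 h1 hκ ((key k).1 hk) (zd_neg_cn _) hv hw

theorem MkT.outH_inH (h : MkT I κ r z e) (hκ : 0 ≤ κ) (hr : 1 ≤ r) :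
    ∃ ν : ℂ, ‖ν‖ = 1 ∧ 1 / 2 ≤ ht ν (st4 e) ∧
      ∀ ρ ≤ r, OutH I z ν ρ (2 * κ * (ρ + 1) + 2) ∧ InH I z ν ρ (2 * κ * (ρ + 1) + 2) := by
  obtain ⟨S, ν, h1, -, h3, -, h5⟩ := h.halves hκ hr
  exact ⟨ν, h1, h3, h5⟩

variable [NeZero M]

theorem MkAt.mono {A : Gauge M} {ℓ ℓ' : ℕ} {s : Tor M × Fin 4} {u : Tor M × Fin 4 → ℝ}
    {ν ν' c η c' η' : ℝ} (h : MkAt A ℓ ℓ' s u ν ν' c η) (hc0 : 0 ≤ c) (hc : c ≤ c') (hη0 : 0 ≤ η)
    (hη : η ≤ η') : MkAt A ℓ ℓ' s u ν ν' c' η' where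
  one := h.one
  pos := h.pos
  pos' := h.pos'
  dom := h.dom
  dom' := h.dom'
  test := h.test.trans (by gcongr)
  rank := fun w => (h.rank w).trans (by
    have := IConv.hsq_nonneg A ℓ' (ball s.1 ℓ') w
    gcongr)
  le := h.le.trans (by
    have := h.pos.le
    gcongr)
  ge := h.ge.trans (by
    have := h.pos'.le
    gcongr)

theorem MkCh.mono' {A : Gauge M} {L J : ℕ} {s : Tor M × Fin 4} {u : ℕ → Tor M × Fin 4 → ℝ}
    {ν : ℕ → ℝ} {c η c' η' : ℝ} (h : MkCh A L J s u ν c η) (hc0 : 0 ≤ c) (hc : c ≤ c')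
    (hη0 : 0 ≤ η) (hη : η ≤ η') : MkCh A L J s u ν c' η' :=
  ⟨h.zero.mono hc0 hc hc0 hc, h.nu0, fun j h1 h2 => (h.pos j h1 h2).mono hc0 hc hη0 hη, h.hom⟩

theorem MkCh.mono {A : Gauge M} {L J : ℕ} {s : Tor M × Fin 4} {u : ℕ → Tor M × Fin 4 → ℝ}
    {ν : ℕ → ℝ} {c η η' : ℝ} (h : MkCh A L J s u ν c η) (hη0 : 0 ≤ η) (hη : η ≤ η') :
    MkCh A L J s u ν c η' :=
  ⟨h.zero, h.nu0, fun j h1 h2 =>
    { h.pos j h1 h2 with
      rank := fun w => ((h.pos j h1 h2).rank w).trans (by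
        have := IConv.hsq_nonneg A (sc L (j + 1)) (ball s.1 (sc L (j + 1))) w
        gcongr) }, h.hom⟩

/-- All sizes up to the last scale are positive. -/
theorem MkCh.nu_pos {A : Gauge M} {L J : ℕ} {s : Tor M × Fin 4} {u : ℕ → Tor M × Fin 4 → ℝ}
    {ν : ℕ → ℝ} {c η : ℝ} (h : MkCh A L J s u ν c η) {j : ℕ} (hj : j ≤ J) : 0 < ν j := by
  rcases j with _ | _ | j
  · exact h.zero.pos
  · exact h.zero.pos'
  · exact (h.pos (j + 1) (by omega) (by omega)).pos'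

theorem MkG.tsep {Λ : Finset (ℤ × ℤ)} {T k : ℕ} {x : Fin k → ℤ × ℤ} {e : Fin k → Fin 4}
    (h : MkG Λ κ r x e) (hΛ : ∀ v ∈ Λ, zd v 0 ≤ T) (hM : 4 * (T + 1) ≤ M) {i i' : Fin k}
    (n : i ≠ i') : r < tdist (prj M (x i)) (prj M (x i')) := by
  have h1 := (h.mk1 i).touch.zd_le hΛ
  have h2 := (h.mk1 i').touch.zd_le hΛ
  have h3 := zd_tri (x i) 0 (x i')
  rw [zd_comm 0] at h3
  rw [tdist_prj (by omega)]
  exact h.sep i i' n

/-- The data of the insertions. -/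
theorem MkG.mkDat {Λ : Finset (ℤ × ℤ)} {T k : ℕ} {x : Fin k → ℤ × ℤ} {e : Fin k → Fin 4}
    (h : MkG Λ κ r x e) (hΛ : ∀ v ∈ Λ, zd v 0 ≤ T) (hM : 4 * (T + 1) ≤ M) {L J : ℕ}
    (hr : 16 * sc L J ≤ r) {u : Fin k → ℕ → Tor M × Fin 4 → ℝ} {ν : Fin k → ℕ → ℝ} {c η : ℝ}
    (hch : ∀ i, MkCh (pwI (Λ.image (prj M))) L J (mkS M x e i) (u i) (ν i) c η) :
    MkDat (pwI (Λ.image (prj M))) (mkS M x e) u ν L J c η where
  val := pwI_val _
  rem := fun i => (((h.mk1 i).mono le_rfl (Nat.zero_le r)).mkT' hΛ (by omega)).rem'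
  pres := fun i => (((h.mk1 i).mono le_rfl (Nat.zero_le r)).mkT' hΛ (by omega)).pres
  sep := fun _ _ n => hr.trans_lt (h.tsep hΛ hM n)
  ch := hch

/-! ### Connection of the outer faces -/

theorem ConnB.grow {T s : ℕ} (h : ConnB I 0 (T + 1) (T + 1)) (hI : ∀ f ∈ I, tdist f 0 ≤ T)
    (hs : T + 1 ≤ s) : ConnB I 0 s s := by
  have sym : ∀ {a b : Tor M}, Relation.ReflTransGen (fun u w => tdist u 0 ≤ s ∧ tdist w 0 ≤ s ∧
      u ∉ I ∧ w ∉ I ∧ ∃ i, w = u + uv M i ∨ u = w + uv M i) a b → Relation.ReflTransGen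
      (fun u w => tdist u 0 ≤ s ∧ tdist w 0 ≤ s ∧ u ∉ I ∧ w ∉ I ∧
        ∃ i, w = u + uv M i ∨ u = w + uv M i) b a := by
    intro a b hab
    induction hab with
    | refl => exact Relation.ReflTransGen.refl
    | tail _ h2 ih =>
      obtain ⟨q1, q2, q3, q4, i, q5⟩ := h2
      exact Relation.ReflTransGen.head ⟨q2, q1, q4, q3, i, q5.symm⟩ ih
  have key : ∀ f, tdist f 0 ≤ s → f ∉ I → ∃ g, tdist g 0 ≤ T + 1 ∧ g ∉ I ∧ Relation.ReflTransGen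
      (fun u w => tdist u 0 ≤ s ∧ tdist w 0 ≤ s ∧ u ∉ I ∧ w ∉ I ∧
        ∃ i, w = u + uv M i ∨ u = w + uv M i) f g := by
    intro f hf hfI
    by_cases h1 : tdist f 0 ≤ T + 1
    · exact ⟨f, h1, hfI, Relation.ReflTransGen.refl⟩
    have h2 := tdist_le f 0
    rw [← zd_lft_zero] at h1 h2 hf
    obtain ⟨w, w1, w2⟩ := rch_in T (lft f) (by omega)
    have h3 : ∀ v, T < zd v 0 ∧ zd v 0 ≤ zd (lft f) 0 →
        tdist (0 + prj M v) 0 ≤ s ∧ 0 + prj M v ∉ I := by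
      intro v hv
      have h4 : tdist (prj M v) 0 = zd v 0 := tdist_prj_zero (by omega)
      rw [zero_add]
      exact ⟨by omega, fun h5 => by have := hI _ h5; omega⟩
    have h4 := lift_rch (Q := fun a => tdist a 0 ≤ s ∧ a ∉ I) 0 h3 w2
    rw [zero_add, prj_lft] at h4
    refine ⟨_, ?_, (h3 w (by omega)).2,
      rtg_mono h4 fun a b q => ⟨q.1.1, q.2.1.1, q.1.2, q.2.1.2, q.2.2⟩⟩
    rw [zero_add, tdist_prj_zero (by omega), w1]
  intro f f' hf hf' n n'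
  obtain ⟨g, g1, g2, g3⟩ := key f hf n
  obtain ⟨g', g1', g2', g3'⟩ := key f' hf' n'
  exact (g3.trans (rtg_mono (h g g' g1 g1' g2 g2') fun a b q =>
    ⟨q.1.trans hs, q.2.1.trans hs, q.2.2⟩)).trans (sym g3')

/-- Any two outer faces are connected. -/
theorem ConnB.outConn {T : ℕ} (h : ConnB I 0 (T + 1) (T + 1)) (hI : ∀ f ∈ I, tdist f 0 ≤ T)
    {f f' : Tor M} (hf : f ∉ I) (hf' : f' ∉ I) : OutConn I f f' := by
  have h1 := tdist_le f 0
  have h2 := tdist_le f' 0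
  exact rtg_mono (h.grow hI (s := T + 1 + M) (by omega) f f' (by omega) (by omega) hf hf')
    fun a b q => q.2.2

theorem Corr.outConn {T q N : ℕ} {p p' : Tor M} (h : Corr I T q N p p') {f f' : Tor M}
    (hf : f ∉ I) (hf' : f' ∉ I) : OutConn I f f' := h.conn.outConn h.box hf hf'

end

end Vale.Agent.P144Z
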