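import Vale.Agent.P144D.I.Lat.Fin
import Vale.Agent.P144D.I.Pw.Dom
import Vale.Agent.P144D.I.Mark.Main
import Vale.Agent.P144D.I.SecA.Main
import Vale.Agent.P144D.I.SecB.Main
import Vale.Agent.P144D.I.Deep.Main
import Vale.Agent.P144D.I.N1.Hopf
import Vale.Agent.P144D.I.N3.Ref
import Vale.Agent.P144D.I.N3.Src
import Vale.Agent.P144D.I.N4.B
import Vale.Agent.P144D.I.N5a.Two
import Vale.Agent.P144D.I.N5b.Main2
import Vale.Agent.P144D.I.N5b.NearB
import Vale.Agent.P144D.I.Gks.Gks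
import Vale.Agent.P144D.I.Gks.Wick
import Vale.Agent.P144D.I.Gks.Gap
import Vale.Agent.P144D.I.T.All
import Vale.Agent.P144D.I.Cg.Path
import Vale.Agent.P144D.I.Cg.Cyc
import Vale.Agent.P144D.I.LB.Main

/-!
The blocks on the nearest-neighbour model with sign changes of the boundary condition.
-/

namespace Vale.Agent.P144Z

theorem mkStmt : MkStmt := mkStmt_of (refStmt_of harnStmt hopfStmt)

theorem twoPt2 : TwoPt2 :=
  twoPt2_of srcStmt (nearA2_of harnStmt) (nearB_of harnStmt hopfStmt) harnStmt gapU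

theorem lbStmt : LBStmt :=
  lbStmt_of2 gksStmt cwStmt wickStmt gapU twoPt2 (tubeStmt_of2 mkStmt twoPt2) pathStmt cycStmt

theorem domQ3_of_main (h : MainBothJ) : DomQ3 :=
  domQ3_of (latStmtJ_of h markStmt secA secB mkStmt deepStmt lbStmt)

end Vale.Agent.P144Z
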