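import Vale.Agent.P144D.I.Stmt
import Vale.Agent.P144D.U.Sec
import Vale.Agent.P144D.FD.Defs
import Vale.Agent.P144D.Geo.A

/-!
Sign changes of the boundary condition: marked boundary points, contours with insertions and the
statements of the blocks.
-/

namespace Vale.Agent.P144Z

open Finset Matrix

/-! ### Marked points in the plane lattice -/

/-- The lattice version of `PW`. -/
def BcZ (Λ : Finset (ℤ × ℤ)) (b : ℤ × ℤ → Bool) (α κ : ℝ) (r : ℕ) : Prop :=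
  ∀ z : ℤ × ℤ, (∃ v ∈ Λ, zd v z ≤ r) → (∀ v, zd v z ≤ r → v ∉ Λ → b v = true) ∨
    (∀ v, zd v z ≤ r → v ∉ Λ → b v = false) ∨ ∃ (S S' : Set (ℤ × ℤ)) (ν τ : ℂ), ‖ν‖ = 1 ∧
      ‖τ‖ = 1 ∧ α ≤ ‖ν + τ‖ ∧ α ≤ ‖ν - τ‖ ∧ Epi S ν κ ∧ Epi S' τ κ ∧ ∀ v : ℤ × ℤ, zd v 0 ≤ r →
        (z + v ∈ Λ ↔ v ∈ S) ∧ (z + v ∉ Λ → (b (z + v) = true ↔ v ∈ S'))

/-- The edge from the vertex `v` in direction `a` is removed: both of its faces are outside. -/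
def RemE (Λ : Finset (ℤ × ℤ)) (v : ℤ × ℤ) (a : Fin 4) : Prop :=
  v - cn (a - 1) ∉ Λ ∧ v - cn a ∉ Λ

/-- The edge from the vertex `v` in direction `a` is a wall of `b`. -/
def WallE (b : ℤ × ℤ → Bool) (v : ℤ × ℤ) (a : Fin 4) : Prop := b (v - cn (a - 1)) ≠ b (v - cn a)

/-- The vertex `v` is a corner of a face of `Λ`. -/
def Touch (Λ : Finset (ℤ × ℤ)) (v : ℤ × ℤ) : Prop := ∃ k, v - cn k ∈ Λ

/-- A marked vertex `x` with inner direction `e`: within distance `r` the region is one cone, and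
the edge from `x` opposite to `e` is removed. -/
structure MkZ (Λ : Finset (ℤ × ℤ)) (κ : ℝ) (r : ℕ) (x : ℤ × ℤ) (e : Fin 4) : Prop where
  cone : ∃ (S : Set (ℤ × ℤ)) (ν : ℂ), ‖ν‖ = 1 ∧ Epi S ν κ ∧ 1 / 2 ≤ ht ν (st4 e) ∧
    ∀ v : ℤ × ℤ, zd v 0 ≤ r → (x + v ∈ Λ ↔ v ∈ S)
  rem : RemE Λ x (e + 2)
  touch : Touch Λ x

/-- Separated marked vertices. -/
structure MkG (Λ : Finset (ℤ × ℤ)) (κ : ℝ) (r : ℕ) {k : ℕ} (x : Fin k → ℤ × ℤ)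
    (e : Fin k → Fin 4) : Prop where
  mk1 : ∀ i, MkZ Λ κ r (x i) (e i)
  sep : ∀ i i', i ≠ i' → r < zd (x i) (x i')

/-- The walls of `b` reach `Λ` exactly at the marked half-edges. -/
def MkW (Λ : Finset (ℤ × ℤ)) (b : ℤ × ℤ → Bool) {k : ℕ} (x : Fin k → ℤ × ℤ)
    (e : Fin k → Fin 4) : Prop :=
  ∀ v a, Touch Λ v → RemE Λ v a → (WallE b v a ↔ ∃ i, v = x i ∧ a = e i + 2)

/-- `b'` is a clean version of `b`. -/
structure MkB (Λ : Finset (ℤ × ℤ)) (b b' : ℤ × ℤ → Bool) (R₀ K : ℕ) {k : ℕ} (x : Fin k → ℤ × ℤ)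
    (e : Fin k → Fin 4) : Prop where
  wall : MkW Λ b' x e
  agree : ∀ v, (∀ i, K < zd v (x i)) → b' v = b v
  far : ∀ v a, RemE Λ v a → WallE b' v a → (∃ u ∈ Λ, zd u v ≤ R₀) → ∃ i, zd v (x i) ≤ K

/-- The marked half-edges on the torus. -/
def mkS (M : ℕ) {k : ℕ} (x : Fin k → ℤ × ℤ) (e : Fin k → Fin 4) (i : Fin k) : Tor M × Fin 4 :=
  (prj M (x i), e i + 2)

/-- Connection of vertices through edges that are not removed. -/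
def PrConn (Λ : Finset (ℤ × ℤ)) : ℤ × ℤ → ℤ × ℤ → Prop :=
  Relation.ReflTransGen fun v w => ∃ a, w = v + st4 a ∧ ¬ RemE Λ v a

/-- The square of radius `d` around `p` lies in `Λ`. -/
def Deep (Λ : Finset (ℤ × ℤ)) (d : ℕ) (p : ℤ × ℤ) : Prop := ∀ v, zd v p ≤ d → v ∈ Λ

/-- Deep points exist near every face, near deep points are connected through deep points, and
near outer faces are connected through outer faces. -/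
structure DeepOK (Λ : Finset (ℤ × ℤ)) (C r : ℕ) : Prop where
  cork : ∀ d, 1 ≤ d → C * d ≤ r → ∀ u ∈ Λ, ∃ p, zd p u ≤ C * d ∧ Deep Λ d p
  conn : ∀ d s, C ≤ d → d ≤ s → C * s ≤ r → ∀ p p', Deep Λ (2 * d) p → Deep Λ (2 * d) p' →
    zd p p' ≤ s → GeoA.Rch (Deep Λ d) p p'
  out : ∀ s, 1 ≤ s → C * s ≤ r → ∀ f f', f ∉ Λ → f' ∉ Λ → zd f f' ≤ s →
    GeoA.Rch (fun v => v ∉ Λ) f f'

/-! ### Contours with insertions -/

section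

variable {M : ℕ}

/-- The weights of the faces `I` with a fixed boundary condition. -/
noncomputable abbrev pwI (I : Finset (Tor M)) : Gauge M := (⟨I, false⟩ : Reg M).pw

/-- The edge of a half-edge. -/
def hedge (s : Tor M × Fin 4) : Tor M × Fin 2 :=
  ![(s.1, 0), (s.1, 1), (s.1 - uv M 0, 0), (s.1 - uv M 1, 1)] s.2

/-- The parity of the number of edges of `n` at `x`. -/
def dgr (n : Tor M × Fin 2 → Bool) (x : Tor M) : ℝ :=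
  sgn (n (x, 0)) * sgn (n (x, 1)) * (sgn (n (x - uv M 0, 0)) * sgn (n (x - uv M 1, 1)))

/-- The vertex `x` is a corner of a face of `I`. -/
def TouchT (I : Finset (Tor M)) (x : Tor M) : Prop := ∃ k, x - prj M (cn k) ∈ I

/-- The torus version of `MkZ`. -/
structure MkT (I : Finset (Tor M)) (κ : ℝ) (r : ℕ) (z : Tor M) (e : Fin 4) : Prop where
  cone : ∃ (S : Set (ℤ × ℤ)) (ν : ℂ), ‖ν‖ = 1 ∧ Epi S ν κ ∧ 1 / 2 ≤ ht ν (st4 e) ∧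
    ∀ v : ℤ × ℤ, zd v 0 ≤ r → (z + prj M v ∈ I ↔ v ∈ S)
  rem : z - prj M (cn (e + 1)) ∉ I ∧ z - prj M (cn (e + 2)) ∉ I
  touch : TouchT I z

/-- Within distance `ρ` of `z`, the corners of the faces of `I'` see the same faces in `I`. -/
def Side (I I' : Finset (Tor M)) (z : Tor M) (ρ : ℕ) : Prop :=
  ∀ x, tdist x z ≤ ρ → TouchT I' x → ∀ k, (x - prj M (cn k) ∈ I ↔ x - prj M (cn k) ∈ I')

/-- A corridor from `p` to `p'`: the complement is connected, the boundary is tame, and a chain of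
squares of radius `2 q` leads from `p` to `p'`. -/
structure Corr (I : Finset (Tor M)) (T q N : ℕ) (p p' : Tor M) : Prop where
  box : ∀ f ∈ I, tdist f 0 ≤ T
  conn : ConnB I 0 (T + 1) (T + 1)
  tr : TrB I 0 M N
  chain : ∃ n ≤ N, ∃ c : ℕ → Tor M, c 0 = p ∧ c n = p' ∧ (∀ i < n, tdist (c (i + 1)) (c i) ≤ q) ∧
    ∀ i ≤ n, ∀ f, tdist f (c i) ≤ 2 * q → f ∈ I

/-- The row of the `m` faces to the right of `f`. -/
def row (f : Tor M) (m : ℕ) : Finset (Tor M) := (Icc 1 m).image fun i : ℕ => f + prj M (i, 0)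

/-- The `m + 1` edges across which the row runs. -/
def cutE (f : Tor M) (m : ℕ) : Finset (Tor M × Fin 2) :=
  (Icc 1 (m + 1)).image fun i : ℕ => (f + prj M (i, 0), 1)

/-- The weights of `W` with the edges of the cut multiplied by `t`. -/
noncomputable def cutG (W : Finset (Tor M)) (f : Tor M) (m : ℕ) (t : ℝ) : Gauge M :=
  fun e => if e ∈ cutE f m then t else pwI W e

/-- A tube of width `64 q`: a vertical strip near `f`, and a corridor once it is cut. -/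
structure Tube (W : Finset (Tor M)) (T q N : ℕ) (f : Tor M) : Prop where
  loc : ∀ v : ℤ × ℤ, zd v 0 ≤ 128 * q → (f + prj M v ∈ W ↔ 1 ≤ v.1 ∧ v.1 ≤ 64 * q)
  f_le : tdist f 0 ≤ T
  q_le : 128 * q ≤ T
  cor : Corr (W \ row f (64 * q)) T q N (f + prj M (32 * q, -(8 * q)))
    (f + prj M (32 * q, 8 * q + 1))

variable [NeZero M]

/-- The Grassmann sign of a set of edges with insertions at the half-edges `s i`. -/
noncomputable def cwI {k : ℕ} (s : Fin k → Tor M × Fin 4) (n : Tor M × Fin 2 → Bool) : ℝ :=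
  aug (gauss ((geo0 M).exM (gM M))
    (Ev.val (∏ e : Tor M × Fin 2, if n e then (geo0 M).edge e.1 e.2 else 1) *
      (List.ofFn fun i => psi ((geo0 M).ex (Pi.single (s i) 1))).prod))

/-- The signed contour sum with insertions. -/
noncomputable def ZJ (q : Par) (A : Gauge M) {k : ℕ} (s : Fin k → Tor M × Fin 4)
    (O : Fin k → (Tor M × Fin 2 → Bool) → ℝ) (Φ : (Tor M × Fin 2 → Bool) → ℝ) : ℝ :=
  ∑ n, cwI s n * wt A q.x n * Real.exp (uint q n) * (∏ i, O i n) * Φ n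

/-- The mixed correlation with the strings `B` and insertions. -/
noncomputable def mixJ (q : Par) (P B : Gauge M) {k : ℕ} (s : Fin k → Tor M × Fin 4)
    (O : Fin k → (Tor M × Fin 2 → Bool) → ℝ) {ι : Type} [Fintype ι] (y : ι → Tor M)
    (d : ι → Fin 2) : ℝ :=
  ZJ q (P * B) s O (fun c => ∏ k, (sgn (c (y k, d k)) - enC q 0 P (y k) (d k))) / Zw q P 1

/-- The observable `O i` only depends on the edges near the half-edge `s i`. -/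
def LocO {k : ℕ} (s : Fin k → Tor M × Fin 4) (K : ℕ)
    (O : Fin k → (Tor M × Fin 2 → Bool) → ℝ) : Prop :=
  ∀ i n n', (∀ e : Tor M × Fin 2, e.1 ∈ ball (s i).1 K → e.1 + uv M e.2 ∈ ball (s i).1 K →
    n e = n' e) → O i n = O i n'

/-- The walls of `σ` on the edges that are not removed. -/
def nOf (I : Finset (Tor M)) (σ : Tor M → Bool) (e : Tor M × Fin 2) : Bool :=
  dom σ e && decide (e.1 ∈ I ∨ oth e ∈ I)

/-- `σ` is `b` outside `I`. -/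
def OutB (I : Finset (Tor M)) (b : ℤ × ℤ → Bool) (σ : Tor M → Bool) : Prop :=
  ∀ u, u ∉ I → σ u = b (lft u)

/-- The weight of a spin configuration with insertions. -/
noncomputable def wJ (q : Par) (I : Finset (Tor M)) {k : ℕ}
    (O : Fin k → (Tor M × Fin 2 → Bool) → ℝ) (σ : Tor M → Bool) : ℝ :=
  wt (pwI I) q.x (nOf I σ) * Real.exp (uint q (nOf I σ)) * ∏ i, O i (nOf I σ)

open Classical in
/-- The sum of the weights `w` over the contours that differ from `n` by walls of spins in `I`. -/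
noncomputable def Yn (I : Finset (Tor M)) (w : Gauge M) (n : Tor M × Fin 2 → Bool) : ℝ :=
  ∑ σ : Tor M → Bool,
    if ∀ u, u ∉ I → σ u = false then wt w 1 (fun e => xor (n e) (dom σ e)) else 0

/-- The half-edge `s` has size `ν` at scale `ℓ` and `ν'` at scale `ℓ'`; near `s` the fields at scale
`ℓ'` are multiples of `u` up to an error `η`. -/
structure MkAt (A : Gauge M) (ℓ ℓ' : ℕ) (s : Tor M × Fin 4) (u : Tor M × Fin 4 → ℝ)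
    (ν ν' c η : ℝ) : Prop where
  one : u s = 1
  pos : 0 < ν
  pos' : 0 < ν'
  dom : Dom A ℓ s.1 (Pi.single s 1) ν
  dom' : Dom A ℓ' s.1 (Pi.single s 1) ν'
  test : hsq A ℓ (ball s.1 (3 * ℓ)) u * ν ^ 2 ≤ c ^ 2 * ℓ
  rank : ∀ w, hsq A ℓ (ball s.1 (3 * ℓ)) (w - w s • u) * (ℓ' : ℝ) ^ 2 ≤
    η ^ 2 * (ℓ : ℝ) ^ 2 * hsq A ℓ' (ball s.1 ℓ') w
  le : ν' ≤ c * ν * √((ℓ : ℝ) / ℓ')
  ge : ν ≤ c * √((ℓ' : ℝ) / ℓ) * ν'

/-- The same at all scales below `J`. -/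
structure MkCh (A : Gauge M) (L J : ℕ) (s : Tor M × Fin 4) (u : ℕ → Tor M × Fin 4 → ℝ)
    (ν : ℕ → ℝ) (c η : ℝ) : Prop where
  zero : MkAt A (sc L 0) (sc L 1) s (u 0) (ν 0) (ν 1) c c
  nu0 : ν 0 = √8
  pos : ∀ j, 1 ≤ j → j < J → MkAt A (sc L j) (sc L (j + 1)) s (u j) (ν j) (ν (j + 1)) c η
  hom : ∀ j, 1 ≤ j → j < J → Hom A s.1 (3 * sc L (j + 1)) (u j)

/-- Insertions at separated removed half-edges on the boundary. -/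
structure MkDat (P : Gauge M) {k : ℕ} (s : Fin k → Tor M × Fin 4)
    (u : Fin k → ℕ → Tor M × Fin 4 → ℝ) (ν : Fin k → ℕ → ℝ) (L J : ℕ) (c η : ℝ) : Prop where
  val : ∀ e, P e = 0 ∨ P e = 1
  rem : ∀ i, P (hedge (s i)) = 0
  pres : ∀ i, ∃ a, P (hedge ((s i).1, a)) = 1
  sep : ∀ i i', i ≠ i' → 16 * sc L J < tdist (s i).1 (s i').1
  ch : ∀ i, MkCh P L J (s i) (u i) (ν i) c η

end

/-! ### The statements of the blocks -/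

/-- The mixed correlations with insertions are those of the nearest-neighbour model up to the two
constants and one factor per insertion. -/
def MainJ (q : Par) (Zσ Zε : ℝ) (L : ℕ) (c c' η₁ : ℝ) (n₁ n₂ : ℕ) : Prop :=
  ∀ K : ℕ, ∃ θ > 0, ∀ (N Λ : ℕ) (Γ : ℝ), 1 ≤ Γ → ∃ C : ℝ, ∀ ε > 0, ∃ J₀ : ℕ, ∀ J ≥ J₀,
    ∀ (M : ℕ) [NeZero M] (P : Gauge M) (k : ℕ) (s : Fin k → Tor M × Fin 4)
    (u : Fin k → ℕ → Tor M × Fin 4 → ℝ) (ν : Fin k → ℕ → ℝ) (o : ℝ)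
    (O : Fin k → (Tor M × Fin 2 → Bool) → ℝ), k ≤ N → MkDat P s u ν L J c' η₁ → LocO s K O →
    |o| ≤ 1 → (∀ i n, |O i n - o| ≤ θ) → ∃ z : Fin k → ℝ, (∀ i, |z i - o| ≤ 1 / 2) ∧
      ∀ (B : Gauge M) (ι : Type) [Fintype ι] [DecidableEq ι] (y : ι → Tor M) (d : ι → Fin 2)
      (n : ℕ) (K' : ℝ), DomDat P B y d n L J N Λ c η₁ n₁ n₂ Γ →
      (∀ φ, φ ⬝ᵥ φ ≤ (Γ * sc L J) ^ 2 * ((Dm (P * B) *ᵥ φ) ⬝ᵥ (Dm (P * B) *ᵥ φ))) →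
      |Zw par0 (P * B) 1| ≤ K' * |Zw par0 P 1| →
        |mixJ q P B s O y d - (∏ i, z i) * Zσ ^ n * Zε ^ Fintype.card ι * mixJ par0 P B s 1 y d| ≤
          ε / (sc L J : ℝ) ^ Fintype.card ι * (K' * ∏ i, ν i J) ∧
        |mixJ par0 P B s 1 y d| ≤ C / (sc L J : ℝ) ^ Fintype.card ι * (K' * ∏ i, ν i J)

/-- Block O: universality with insertions, with the same constants. -/
def MainBothJ : Prop :=
  ∀ (c c' : ℝ) (n₁ : ℕ), 1 ≤ c → 1 ≤ c' → ∃ η₀ > 0, ∀ η₁, 0 < η₁ → η₁ ≤ η₀ → ∀ n₂ : ℕ, ∃ L₀ : ℕ,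
    ∀ L ≥ L₀, ∀ ε > 0, ∃ η₂ > 0, ∀ R : ℕ, ∃ δ₀ > 0, ∀ q : Par, q.R = R → Crit L q η₂ δ₀ →
      ∃ Zσ Zε : ℝ, |Zσ - 1| < ε ∧ |Zε - 1| < ε ∧ MainOK q Zσ Zε ∧
        MainR q Zσ Zε L c η₁ n₁ n₂ η₂ δ₀ ∧ MainJ q Zσ Zε L c c' η₁ n₁ n₂

/-- The marked points of a boundary condition. -/
def MarkStmt : Prop :=
  ∀ α > (0 : ℝ), ∀ R₀ : ℕ, ∃ K : ℕ, ∀ Λ₀ : ℕ, ∃ k₀ : ℕ, ∀ κ > (0 : ℝ), 100 * κ ≤ α → ∀ r : ℕ,
    8 * K ≤ r → ∀ (Λ : Finset (ℤ × ℤ)) (b : ℤ × ℤ → Bool), BcZ Λ b α κ r →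
    (∀ v ∈ Λ, zd v 0 ≤ Λ₀ * r) → ∃ k ≤ k₀, ∃ (x : Fin k → ℤ × ℤ) (e : Fin k → Fin 4)
      (b' : ℤ × ℤ → Bool), MkG Λ κ (r / 2) x e ∧ MkB Λ b b' R₀ K x e

/-- From the plane to the lattice. -/
def PwStmt : Prop :=
  ∀ D P : Set ℂ, PW D P → ∃ α > (0 : ℝ), ∀ κ > (0 : ℝ), ∃ ρ > (0 : ℝ), ∀ a > (0 : ℝ),
    ∀ Λ : Finset (ℤ × ℤ), (∀ x, x ∈ Λ ↔ (⟨a * x.1, a * x.2⟩ : ℂ) ∈ D) → ∀ r : ℕ, a * r ≤ ρ →
      BcZ Λ (bcOf P a) α κ r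

/-- The sign of contours with insertions. -/
def CwStmt : Prop :=
  ∀ (M : ℕ) [NeZero M] (k : ℕ) (s : Fin k → Tor M × Fin 4) (n : Tor M × Fin 2 → Bool),
    (Function.Injective fun i => (s i).1) → |cwI s n| ≤ 1 ∧
      (cwI s n ≠ 0 → ∀ x, (dgr n x = -1 ↔ ∃ i, x = (s i).1))

open Classical in
/-- The sum over the strings to the holes with signs selects the boundary condition `b`. -/
def SecA : Prop :=
  ∀ (M : ℕ) [NeZero M] (Λ : Finset (ℤ × ℤ)) (T r H k : ℕ) (a : ℤ × ℤ) (hs : Fin H → ℤ × ℤ)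
    (x : Fin k → ℤ × ℤ) (e : Fin k → Fin 4) (b : ℤ × ℤ → Bool), Holes Λ T r a hs →
    UL.Cn M Λ a hs → Function.Injective x → (∀ i, Touch Λ (x i) ∧ RemE Λ (x i) (e i + 2)) →
    MkW Λ b x e → 4 * (T + 2) ≤ M →
    (∃ (ε : Finset (Fin H) → ℝ) (ς : ℤ × ℤ → ℝ) (κ₀ : ℝ), IsSign ε ∧ IsSign ς ∧ |κ₀| = 2 ^ H ∧
      ∀ (q : Par) (O : Fin k → (Tor M × Fin 2 → Bool) → ℝ) (n : ℕ) (z : Fin n → ℤ × ℤ)
        (Φ : (Tor M × Fin 2 → Bool) → ℝ),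
        ∑ S, ε S * ZJ q (pwI (Λ.image (prj M)) * (spinG M a z * holeG M a hs S)) (mkS M x e) O Φ =
          κ₀ * (∏ i, ς (z i)) * ∑ σ : Tor M → Bool, if OutB (Λ.image (prj M)) b σ then
            (∏ i, P144.sp (σ (prj M (z i)))) * wJ q (Λ.image (prj M)) O σ *
              Φ (nOf (Λ.image (prj M)) σ) else 0) ∧
    ∃ n₀ : Tor M × Fin 2 → Bool, (∀ e', n₀ e' = true → pwI (Λ.image (prj M)) e' = 1) ∧
      (∀ v, dgr n₀ v = -1 ↔ ∃ i, v = prj M (x i)) ∧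
      (∑ σ : Tor M → Bool, if OutB (Λ.image (prj M)) b σ then
        wJ par0 (Λ.image (prj M)) (1 : Fin k → _) σ else 0) =
        Yn (Λ.image (prj M)) (tc • pwI (Λ.image (prj M))) n₀

open Classical in
/-- The Gibbs measure with boundary condition `b` in terms of local insertions. -/
def SecB : Prop :=
  ∀ R K : ℕ, ∃ (K' : ℕ) (C : ℝ), 1 ≤ C ∧ ∀ (J lam β : ℝ) (q : Par), UL.Rel J lam β q → q.R ≤ R →
    1 / 4 ≤ q.x → q.x ≤ 1 / 2 → q.Small 1 → ∀ (M : ℕ) [NeZero M] (Λ : Finset (ℤ × ℤ)) (T k : ℕ)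
    (x : Fin k → ℤ × ℤ) (e : Fin k → Fin 4) (b b' : ℤ × ℤ → Bool), (∀ v ∈ Λ, zd v 0 ≤ T) →
    4 * (T + K' + 2) ≤ M → (∀ i, Touch Λ (x i) ∧ RemE Λ (x i) (e i + 2)) →
    (∀ i i', i ≠ i' → 2 * K' < zd (x i) (x i')) → MkB Λ b b' (2 * R + 4) K x e →
    ∃ O : Fin k → (Tor M × Fin 2 → Bool) → ℝ, LocO (mkS M x e) K' O ∧
      (∀ i n, C⁻¹ ≤ O i n ∧ O i n ≤ C) ∧ ∀ F : P144.Config → ℝ,
        (∀ σ σ', (∀ v ∈ Λ, σ v = σ' v) → F σ = F σ') →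
        P144.gibbs J lam q.V β (some b) Λ F =
          (∑ σ : Tor M → Bool, if OutB (Λ.image (prj M)) b' σ then
            F (per M σ) * wJ q (Λ.image (prj M)) O σ else 0) /
          ∑ σ : Tor M → Bool, if OutB (Λ.image (prj M)) b' σ then
            wJ q (Λ.image (prj M)) O σ else 0

/-- Griffiths' inequalities for contours. -/
def GksStmt : Prop :=
  ∀ (M : ℕ) [NeZero M] (I : Finset (Tor M)) (w : Gauge M), (∀ e, 0 ≤ w e ∧ w e ≤ 1) →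
    (∀ n, Yn I w n ≤ Yn I w fun _ => false) ∧
    (∀ n n', Yn I w n * Yn I w n' ≤ Yn I w (fun e => xor (n e) (n' e)) * Yn I w fun _ => false) ∧
    ∀ w' : Gauge M, (∀ e, 0 ≤ w' e ∧ w' e ≤ w e) → ∀ n,
      Yn I w' n * Yn I w (fun _ => false) ≤ Yn I w n * Yn I w' fun _ => false

/-- Two insertions give the Green function. -/
def WickStmt : Prop :=
  ∀ (M : ℕ) [NeZero M] (A : Gauge M) (s s' : Tor M × Fin 4) (φ : Tor M × Fin 4 → ℝ),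
    (∀ ψ, Dm A *ᵥ ψ = 0 → ψ = 0) → Dm A *ᵥ φ = Pi.single s' 1 →
      |ZJ par0 A ![s, s'] 1 1| = |φ s| * |Zw par0 A 1|

/-- The sizes of a marked half-edge. -/
def MkStmt : Prop :=
  ∃ c : ℝ, 1 ≤ c ∧ ∃ C₀ : ℕ, ∀ η > 0, ∃ L₀ : ℕ, ∀ L ≥ L₀, ∃ κ > 0, ∀ (M : ℕ) [NeZero M]
    (I : Finset (Tor M)) (r J : ℕ) (z : Tor M) (e : Fin 4), MkT I κ r z e → 4 * r ≤ M → 1 ≤ J →
    C₀ * sc L J ≤ r → ∃ u ν, MkCh (pwI I) L J (z, e + 2) u ν c η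

/-- The Green function between two marked half-edges of a corridor is bounded below. -/
def TwoPt : Prop :=
  ∀ c : ℝ, 1 ≤ c → ∃ η > 0, ∃ C₀ L₀ : ℕ, ∀ L ≥ L₀, ∃ κ > 0, ∀ N : ℕ, ∃ c₀ > 0, ∃ J₀ : ℕ,
    ∀ J ≥ J₀, ∀ (M : ℕ) [NeZero M] (I Ia Ib : Finset (Tor M)) (T q : ℕ) (a b : Tor M)
    (ea eb : Fin 4) (ua ub : ℕ → Tor M × Fin 4 → ℝ) (νa νb : ℕ → ℝ),
    Corr I T q N (a + prj M ((8 * q : ℕ) • st4 ea)) (b + prj M ((8 * q : ℕ) • st4 eb)) →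
    Side I Ia a (16 * q) → Side I Ib b (16 * q) → MkT Ia κ (16 * q) a ea →
    MkT Ib κ (16 * q) b eb → ¬ (tdist b a ≤ 16 * q ∧ TouchT Ia b) →
    ¬ (tdist a b ≤ 16 * q ∧ TouchT Ib a) → C₀ * sc L J ≤ q → q ≤ T → T ≤ N * sc L J →
    64 * T ≤ M → MkCh (pwI Ia) L J (a, ea + 2) ua νa c η → MkCh (pwI Ib) L J (b, eb + 2) ub νb c η →
    ∀ φ, Dm (pwI I) *ᵥ φ = Pi.single (a, ea + 2) 1 → c₀ * νa J * νb J ≤ |φ (b, eb + 2)|

/-- The spectral gap of a corridor. -/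
def GapU : Prop :=
  ∃ C : ℝ, 1 ≤ C ∧ ∀ (M : ℕ) [NeZero M] (I : Finset (Tor M)) (T N : ℕ), 8 ≤ T → 8 * T ≤ M →
    (∀ f ∈ I, tdist f 0 ≤ T) → TrB I 0 M N → ∀ φ,
      φ ⬝ᵥ φ ≤ (C * (N + 1) * T) ^ 2 * ((Dm (pwI I) *ᵥ φ) ⬝ᵥ (Dm (pwI I) *ᵥ φ))

/-- In a tube the contours that wind around have a positive share. -/
def TubeStmt : Prop :=
  ∀ N : ℕ, ∃ t > (0 : ℝ), t ≤ 1 ∧ ∃ c₀ > 0, ∃ q₀ : ℕ, ∀ q ≥ q₀, ∀ (M : ℕ) [NeZero M]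
    (W : Finset (Tor M)) (T : ℕ) (f : Tor M), Tube W T q N f → T ≤ N * q → 64 * T ≤ M →
      c₀ * (Zw par0 (cutG W f (64 * q) t) 1 + Zw par0 (cutG W f (64 * q) (-t)) 1) ≤
        Zw par0 (cutG W f (64 * q) t) 1 - Zw par0 (cutG W f (64 * q) (-t)) 1

/-- The regions of the class `ShapeZ` have deep points. -/
def DeepStmt : Prop :=
  ∀ α > (0 : ℝ), ∃ C : ℕ, 1 ≤ C ∧ ∀ (κ : ℝ) (Λ : Finset (ℤ × ℤ)) (r : ℕ), 0 < κ →
    100 * κ ≤ min α 1 → ShapeZ Λ α κ r → DeepOK Λ C r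

/-- Two connected marked vertices are joined by a corridor. -/
def PathStmt : Prop :=
  ∀ C : ℕ, ∃ C₀ : ℕ, ∀ Λ₀ : ℕ, ∃ N : ℕ, ∀ (κ : ℝ) (Λ : Finset (ℤ × ℤ)) (T r q : ℕ)
    (a b : ℤ × ℤ) (ea eb : Fin 4), 0 < κ → 100 * κ ≤ 1 → DeepOK Λ C r →
    (∀ v ∈ Λ, zd v 0 ≤ T) → T ≤ Λ₀ * q → C₀ ≤ q → C₀ * q ≤ r → r ≤ T → MkZ Λ κ r a ea →
    MkZ Λ κ r b eb → r < zd a b → PrConn Λ a b → ∀ (M : ℕ) [NeZero M], 64 * T ≤ M →
      ∃ U ⊆ Λ.image (prj M), Corr U T q N (prj M a + prj M ((8 * q : ℕ) • st4 ea))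
        (prj M b + prj M ((8 * q : ℕ) • st4 eb)) ∧ Side U (Λ.image (prj M)) (prj M a) (16 * q) ∧
        Side U (Λ.image (prj M)) (prj M b) (16 * q)

/-- Closed contours are sums of a bounded number of cycles in tubes, up to walls of spins. -/
def CycStmt : Prop :=
  ∀ C : ℕ, ∃ C₀ : ℕ, ∀ Λ₀ : ℕ, ∃ N : ℕ, ∀ (Λ : Finset (ℤ × ℤ)) (T r q : ℕ),
    DeepOK Λ C r → (∀ v ∈ Λ, zd v 0 ≤ T) → T ≤ Λ₀ * q → C₀ ≤ q →
    C₀ * q ≤ r → r ≤ T → ∀ (M : ℕ) [NeZero M], 64 * T ≤ M → ∀ τ : Tor M → Bool,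
    (∀ e, dom τ e = true → pwI (Λ.image (prj M)) e = 1) →
      ∃ n ≤ N, ∃ (W : Fin n → Finset (Tor M)) (f : Fin n → Tor M)
        (C : Fin n → Tor M × Fin 2 → Bool) (σ : Tor M → Bool),
        (∀ j, W j ⊆ Λ.image (prj M) ∧ Tube (W j) T q N (f j) ∧ I1.IsEven (C j) ∧
          (∀ e, C j e = true → pwI (W j) e = 1) ∧ ∏ e ∈ cutE (f j) (64 * q), sgn (C j e) = -1) ∧
        (∀ u, u ∉ Λ.image (prj M) → σ u = false) ∧
        ∀ e, sgn (dom τ e) = sgn (dom σ e) * ∏ j, sgn (C j e)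

/-- The lower bound on the partition function with sign changes. -/
def LBStmt : Prop :=
  ∀ (C : ℕ) (c : ℝ), 1 ≤ c → ∃ η > 0, ∃ C₀ L₀ : ℕ, ∀ L ≥ L₀, ∃ κ > 0, ∀ N : ℕ, ∃ c₀ > 0,
    ∃ J₀ : ℕ, ∀ J ≥ J₀, ∀ (M : ℕ) [NeZero M] (Λ : Finset (ℤ × ℤ)) (T r H k : ℕ) (a : ℤ × ℤ)
    (hs : Fin H → ℤ × ℤ) (x : Fin k → ℤ × ℤ) (e : Fin k → Fin 4)
    (u : Fin k → ℕ → Tor M × Fin 4 → ℝ) (ν : Fin k → ℕ → ℝ) (n₀ : Tor M × Fin 2 → Bool),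
    DeepOK Λ C r → (∀ v ∈ Λ, zd v 0 ≤ T) → prj M a ∉ Λ.image (prj M) →
    (∀ i, prj M (hs i) ∉ Λ.image (prj M)) → UL.Cn M Λ a hs → H ≤ N → k ≤ N → MkG Λ κ r x e →
    C₀ * sc L J ≤ r → r ≤ T → T ≤ N * sc L J → 64 * T ≤ M →
    (∀ i, MkCh (pwI (Λ.image (prj M))) L J (mkS M x e i) (u i) (ν i) c η) →
    (∀ e', n₀ e' = true → pwI (Λ.image (prj M)) e' = 1) →
    (∀ v, dgr n₀ v = -1 ↔ ∃ i, v = prj M (x i)) →
      c₀ * (∏ i, ν i J) * Zw par0 (pwI (Λ.image (prj M))) 1 ≤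
        Yn (Λ.image (prj M)) (tc • pwI (Λ.image (prj M))) n₀

open P144 in
/-- Universality for finite sets of sites with piecewise constant boundary condition. -/
def LatOKJ (q : Par) (Zσ Zε α κ : ℝ) : Prop :=
  ∀ J lam β : ℝ, 0 < J → q.μ = β * lam → q.x = Real.exp (-(2 * β * J)) → ∀ α' κ' : ℝ, 0 < κ' →
    κ' ≤ κ → 100 * κ' ≤ α' → ∀ n m Λ₀ : ℕ, ∀ ε > 0, ∃ r₀ : ℕ, ∀ r ≥ r₀, ∀ (Λ : Finset Site)
      (b : Config) (x : Fin n → Site) (y : Fin m → Site) (j : Fin m → Fin 2), ShapeZ Λ α κ r →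
      BcZ Λ b α' κ' r → (∀ v ∈ Λ, zd v 0 ≤ Λ₀ * r) → Spins Λ r (Sum.elim x y) →
        |lcor (gibbs J lam q.V β (some b) Λ) x y j -
          Zσ ^ n * Zε ^ m * lcor (gibbs J 0 (fun _ => 0) (Kc / J) (some b) Λ) x y j| ≤
          ε * (r : ℝ) ^ (-((n : ℝ) / 8)) / (r : ℝ) ^ m

/-- Universality on the lattice. -/
def LatStmtJ : Prop :=
  ∀ α > 0, ∃ L₀ : ℕ, ∀ L ≥ L₀, ∃ κ > 0, ∀ ε > 0, ∃ η₀ > 0, ∀ R : ℕ, ∃ δ₀ > 0, ∀ q : Par,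
    q.R = R → Crit L q η₀ δ₀ → ∃ Zσ Zε : ℝ, |Zσ - 1| < ε ∧ |Zε - 1| < ε ∧ MainOK q Zσ Zε ∧
      LatOK q Zσ Zε α κ ∧ LatOKJ q Zσ Zε α κ

end Vale.Agent.P144Z
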