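import Vale.Agent.P144D.I.Defs

/-!
Intermediate statements for the analysis at the marked points.
-/

namespace Vale.Agent.P144Z

open Finset Matrix

/-- `w` is superharmonic at `v`. -/
def SupH (w : ℤ × ℤ → ℝ) (v : ℤ × ℤ) : Prop := ∑ a, (w (v + st4 a) - w v) ≤ 0

/-- The weak Harnack inequality. -/
def HarnStmt : Prop :=
  ∀ K : ℕ, ∃ c > (0 : ℝ), ∀ (m : ℕ) (w : ℤ × ℤ → ℝ) (p : ℤ × ℤ) (A : ℝ), 1 ≤ m → 0 ≤ A →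
    (∀ v, zd v p ≤ (K + 1) * m + 1 → 0 ≤ w v) → (∀ v, zd v p ≤ (K + 1) * m → SupH w v) →
    (∀ v, zd v p ≤ m → A ≤ w v) → ∀ v, zd v p ≤ K * m → c * A ≤ w v

/-- The lemma of Hopf at an almost flat wall. -/
def HopfStmt : Prop :=
  ∃ c > (0 : ℝ), ∃ C : ℕ, ∀ (ρ : ℕ) (w : ℤ × ℤ → ℝ) (ν : ℂ) (e : Fin 4) (w₀ A : ℝ), ‖ν‖ = 1 →
    1 / 2 ≤ ht ν (st4 e) → 0 ≤ w₀ → 0 ≤ A → C * (w₀ + 1) ≤ ρ → (∀ v, zd v 0 ≤ ρ + 1 → 0 ≤ w v) →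
    (∀ v, zd v 0 ≤ ρ → w₀ ≤ ht ν v → SupH w v) →
    (∀ v, zd v ((ρ / 2) • st4 e) ≤ ρ / 64 → A ≤ w v) →
      ∀ v, 4 * zd v 0 ≤ ρ → c * A * (ht ν v - w₀ - C) ≤ ρ * w v

/-- A reference solution at a marked vertex that is nondegenerate at all scales. -/
def RefStmt : Prop :=
  ∃ c > (0 : ℝ), ∃ C : ℕ, ∀ (M : ℕ) [NeZero M] (I : Finset (Tor M)) (κ : ℝ) (ρ : ℕ) (z : Tor M)
    (e : Fin 4), 0 < κ → 100 * κ ≤ 1 → MkT I κ (8 * ρ) z e → 32 * ρ ≤ M → C ≤ ρ →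
      ∃ φ, Hom (pwI I) z ρ φ ∧ l2sq (ball z ρ) φ ≤ ρ ∧
        (∀ s : ℕ, C * (κ * ρ + 1) ≤ s → s ≤ ρ → c * s ^ 2 ≤ ρ * l2sq (ball z s) φ) ∧
        (κ * ρ ≤ 1 → c ≤ ρ * φ (z, e + 2) ^ 2)

/-- The pair of the Green function with a source on a removed half-edge. -/
def SrcStmt : Prop :=
  ∀ (M : ℕ) [NeZero M] (I : Finset (Tor M)) (T : ℕ) (x₀ : ℤ × ℤ) (a₀ : Fin 4)
    (φ : Tor M × Fin 4 → ℝ), (∀ f ∈ I, tdist f 0 ≤ T) → ConnB I 0 (T + 1) (T + 1) → 64 * T ≤ M →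
    8 ≤ T → zd x₀ 0 ≤ T + 1 → pwI I (hedge (prj M x₀, a₀)) = 0 →
    Dm (pwI I) *ᵥ φ = Pi.single (prj M x₀, a₀) 1 →
      ∃ u w : ℤ × ℤ → ℝ,
        (∀ v k, zd v 0 ≤ 20 * T → u v - w (v - cn k) = chi φ (prj M v) k ^ 2) ∧
        (∀ v, zd v 0 ≤ 20 * T + 1 → 0 ≤ w v ∧ (prj M v ∉ I → w v = 0) ∧
          (prj M v ∈ I → SupH w v)) ∧ u x₀ = 1 ∧
        ∀ v, zd v 0 + 1 ≤ 20 * T → v ≠ x₀ →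
          0 ≤ ∑ a, GG u ((⟨I, false⟩ : Reg M).pr 0) v a ∧
          ∑ k, chi φ (prj M v) k ^ 2 ≤ 7 * ∑ a, |GG u ((⟨I, false⟩ : Reg M).pr 0) v a|

/-- Near the source the superharmonic function is bounded below on a deep square. -/
def NearA : Prop :=
  ∀ c : ℝ, 1 ≤ c → ∃ C₀ L₀ : ℕ, ∀ L ≥ L₀, ∃ κ > 0, ∀ N : ℕ, ∃ c₀ > 0, ∃ J₀ : ℕ, ∀ J ≥ J₀,
    ∀ (M : ℕ) [NeZero M] (I Ia : Finset (Tor M)) (T q : ℕ) (x₀ : ℤ × ℤ) (e : Fin 4)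
    (ua : ℕ → Tor M × Fin 4 → ℝ) (νa : ℕ → ℝ) (η : ℝ) (φ : Tor M × Fin 4 → ℝ)
    (u w : ℤ × ℤ → ℝ), (∀ f ∈ I, tdist f 0 ≤ T) → zd x₀ 0 ≤ T + 1 →
    Side I Ia (prj M x₀) (16 * q) → MkT Ia κ (16 * q) (prj M x₀) e → C₀ * sc L J ≤ q → q ≤ T →
    T ≤ N * sc L J → 64 * T ≤ M → MkCh (pwI Ia) L J (prj M x₀, e + 2) ua νa c η →
    Dm (pwI I) *ᵥ φ = Pi.single (prj M x₀, e + 2) 1 →
    (∀ v k, zd v 0 ≤ 20 * T → u v - w (v - cn k) = chi φ (prj M v) k ^ 2) →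
    (∀ v, zd v 0 ≤ 20 * T + 1 → 0 ≤ w v ∧ (prj M v ∉ I → w v = 0) ∧ (prj M v ∈ I → SupH w v)) →
    (∀ v, zd v 0 + 1 ≤ 20 * T → v ≠ x₀ → 0 ≤ ∑ a, GG u ((⟨I, false⟩ : Reg M).pr 0) v a ∧
      ∑ k, chi φ (prj M v) k ^ 2 ≤ 7 * ∑ a, |GG u ((⟨I, false⟩ : Reg M).pr 0) v a|) →
      ∀ v, zd v (x₀ + (8 * q : ℕ) • st4 e) ≤ q → c₀ * νa J ^ 2 ≤ w v

/-- Near the second point a lower bound on a deep square gives a lower bound on the field. -/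
def NearB' : Prop :=
  ∀ c : ℝ, 1 ≤ c → ∃ η > 0, ∃ C₀ L₀ : ℕ, ∀ L ≥ L₀, ∃ κ > 0, ∀ (N : ℕ) (Q : ℝ), ∃ c₀ > 0,
    ∃ J₀ : ℕ, ∀ J ≥ J₀, ∀ (M : ℕ) [NeZero M] (I : Finset (Tor M)) (q : ℕ) (z : Tor M) (e : Fin 4)
    (ub : ℕ → Tor M × Fin 4 → ℝ) (νb : ℕ → ℝ) (φ : Tor M × Fin 4 → ℝ) (u w : ℤ × ℤ → ℝ) (A : ℝ),
    MkT I κ (16 * q) z e → C₀ * sc L J ≤ q → q ≤ N * sc L J → 64 * q ≤ M →
    MkCh (pwI I) L J (z, e + 2) ub νb c η → Hom (pwI I) z (15 * q) φ → 0 ≤ A →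
    (∀ v k, zd v 0 ≤ 14 * q → TouchT I (z + prj M v) →
      u v - w (v - cn k) = chi φ (z + prj M v) k ^ 2) →
    (∀ v, zd v 0 ≤ 14 * q → 0 ≤ w v ∧ (z + prj M v ∉ I → w v = 0) ∧
      (z + prj M v ∈ I → SupH w v)) →
    (∀ v, zd v ((8 * q : ℕ) • st4 e) ≤ q / 2 → A ≤ w v) →
    l2sq (ball z (3 * sc L J)) φ ≤ Q * A * sc L J →
      c₀ * A * νb J ^ 2 ≤ φ (z, e + 2) ^ 2

end Vale.Agent.P144Z
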