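import Vale.Agent.P144D.Tame

/-!
Piecewise constant boundary conditions.
-/

namespace Vale.Agent.P144Z

open Metric Vale.Agent.P144

/-- Near `D`, at small scales and uniformly, the outside of `D` lies in `P`, or lies outside `P`,
or `D` and `P` are regions above graphs of arbitrarily small slope that cross transversally. -/
def PW (D P : Set ℂ) : Prop :=
  ∃ α > (0 : ℝ), ∀ κ > (0 : ℝ), ∃ r > (0 : ℝ), ∀ z : ℂ, (D ∩ ball z r).Nonempty →
    ball z r \ D ⊆ P ∨ ball z r \ D ⊆ Pᶜ ∨ ∃ (S S' : Set ℂ) (ν τ : ℂ), ‖ν‖ = 1 ∧ ‖τ‖ = 1 ∧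
      α ≤ ‖ν + τ‖ ∧ α ≤ ‖ν - τ‖ ∧ Cone S ν κ ∧ Cone S' τ κ ∧ D ∩ ball z r = S ∩ ball z r ∧
        (P \ D) ∩ ball z r = (S' \ D) ∩ ball z r

open Classical in
/-- The boundary condition that is plus on `P` and minus elsewhere. -/
noncomputable def bcOf (P : Set ℂ) (a : ℝ) : Config :=
  fun x => decide ((⟨a * x.1, a * x.2⟩ : ℂ) ∈ P)

/-- The free boundary condition, or a piecewise constant fixed one. -/
def SignBC (D : Set ℂ) (b : Option (ℝ → Config)) : Prop :=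
  b = none ∨ ∃ P, PW D P ∧ b = some (bcOf P)

/-- Q1 in the plane and in the domains of the class `Tame α`, with the same constants. -/
def DomQ3 : Prop :=
  ∀ α > 0, ∀ J > 0, ∀ V, IsPotential V → ∀ ε > 0, ∃ lam₀ > 0, ∀ lam : ℝ, |lam| < lam₀ →
    ∃ β > 0, ∃ Zσ Zε : ℝ, |β - Kc / J| < ε ∧ |Zσ - 1| < ε ∧ |Zε - 1| < ε ∧ Zσ ≠ 0 ∧ Zε ≠ 0 ∧
      (∃ μ, IsPlaneState J lam V β μ ∧ IsTorusState J lam V β μ ∧
        ∀ E₀, PlaneFam J 0 (fun _ => 0) (Kc / J) E₀ →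
          Diff Set.univ E₀ (famOf μ) Zσ Zε ∧ Identity Set.univ E₀ (famOf μ) Zσ Zε) ∧
      ∀ D, Tame α D → ∀ b, SignBC D b → Diff D (crit J D b) (inDom J lam V β D b) Zσ Zε ∧
        Identity D (crit J D b) (inDom J lam V β D b) Zσ Zε

end Vale.Agent.P144Z
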